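import Vale.Agent.P241GR.C
import Vale.Agent.P241GT.Tri
import Mathlib.CategoryTheory.Localization.Adjunction

/-!
# P241G, row C2: `F ⊗ -` induces an autoequivalence of the localization
-/

open CategoryTheory MonoidalCategory Limits

noncomputable section

namespace Vale.Agent.P241GE

open P251.H P251.St P241.St P241GA P241GA.GIn P241GR
open P251.H.GS.StabInput

universe v' u u'

variable {G : Type} [Group G] [Finite G] {M : Type u} [Category.{0} M] [MonoidalCategory M]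
  [SymmetricCategory M] [MonoidalClosed M] [HasZeroMorphisms M] [HasColimitsOfSize.{0, 0} M]
  [GIn G M] {C : Type u'} [Category.{v'} C] (Q : M ⥤ C) [Q.IsLocalization (piW (GG M))]

/-- `F ⊗ -` induces an autoequivalence. -/
theorem exists_F (h : C1 M) : ∃ E : C ⥤ C, E.IsEquivalence ∧
    Nonempty (Q ⋙ E ≅ tensorLeft (F : M) ⋙ Q) := by
  have h1 : (piW (GG M)).IsInvertedBy (tensorLeft (F : M) ⋙ Q) := fun _ _ f hf =>
    Localization.inverts Q (piW (GG M)) _ (h.tenF f hf)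
  have h2 : (piW (GG M)).IsInvertedBy (tensorLeft ((JG M).obj (Vg G)) ⋙ Q) := fun _ _ f hf =>
    Localization.inverts Q (piW (GG M)) _ (h.tenV f hf)
  let E := Localization.lift _ h1 Q
  let E' := Localization.lift _ h2 Q
  let a : Q ⋙ E ≅ _ := Localization.fac _ h1 Q
  let b : Q ⋙ E' ≅ _ := Localization.fac _ h2 Q
  let α : E ⋙ E' ≅ 𝟭 C :=
    Localization.liftNatIso Q (piW (GG M)) (Q ⋙ E ⋙ E') Q (E ⋙ E') (𝟭 C)
      ((Functor.associator _ _ _).symm ≪≫ Functor.isoWhiskerRight a E' ≪≫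
        Functor.associator _ _ _ ≪≫ Functor.isoWhiskerLeft _ b ≪≫
          P241GT.aug (GG M) Q (β_ _ _ ≪≫ (uIso M).symm))
  let β : E' ⋙ E ≅ 𝟭 C :=
    Localization.liftNatIso Q (piW (GG M)) (Q ⋙ E' ⋙ E) Q (E' ⋙ E) (𝟭 C)
      ((Functor.associator _ _ _).symm ≪≫ Functor.isoWhiskerRight b E ≪≫
        Functor.associator _ _ _ ≪≫ Functor.isoWhiskerLeft _ a ≪≫
          P241GT.aug (GG M) Q (uIso M).symm)
  exact ⟨E, (CategoryTheory.Equivalence.mk E E' α.symm β).isEquivalence_functor, ⟨a⟩⟩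

/-- **Row C2**. -/
theorem c2 (h : C1 M) : C2 Q := by
  obtain ⟨E, hE, ⟨a⟩⟩ := exists_F Q h
  have h3 : (piW (GG M)).IsInvertedBy (ihom (F : M) ⋙ Q) := fun _ _ f hf =>
    Localization.inverts Q (piW (GG M)) _ (h.hom f hf)
  let R := Localization.lift _ h3 Q
  let c : Q ⋙ R ≅ _ := Localization.fac _ h3 Q
  let _ : CatCommSq (tensorLeft (F : M)) Q Q E := ⟨a.symm⟩
  let _ : CatCommSq (ihom (F : M)) Q Q R := ⟨c.symm⟩
  let adj : E ⊣ R := (ihom.adjunction (F : M)).localization Q (piW (GG M)) Q (piW (GG M)) E R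
  refine ⟨R, adj.isEquivalence_right_of_isEquivalence_left, ⟨c.symm⟩, ⟨?_⟩⟩
  exact (Functor.associator _ _ _).symm ≪≫ Functor.isoWhiskerRight a.symm R ≪≫
    Functor.associator _ _ _ ≪≫ Functor.isoWhiskerLeft Q (asIso adj.unit).symm ≪≫
      Functor.rightUnitor Q

end Vale.Agent.P241GE
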