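import Vale.Agent.P241GE.C2
import Vale.Agent.P241GL.A1

/-!
# P241G, rows C3 and C3': morphisms of finite objects are represented by `G`-maps
-/

open CategoryTheory MonoidalCategory Limits

noncomputable section

namespace Vale.Agent.P241GE

open P251.G P251.G.LC P251.H P251.St P241.St P241GA P241GA.GIn P241GR
open P251.H.GS.StabInput
open P241.Geo (xt)
open P241Z (reg)

universe v' u u'

section

variable {M : Type u} [Category.{0} M] [MonoidalCategory M] [SymmetricCategory M]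
  [MonoidalClosed M] [HasZeroMorphisms M] [HasColimitsOfSize.{0, 0} M] [GS.StabInput M]

/-- `V ⊗ (U^k ⊗ A) ≅ U^k ⊗ (V ⊗ A)` over `V ⊗ A` -/
theorem exists_pw_tensor (V A : M) (k : ℕ) : ∃ e : V ⊗ pwM k A ≅ pwM k (V ⊗ A),
    e.hom ≫ tkM k (V ⊗ A) = V ◁ tkM k A := by
  induction k with
  | zero => exact ⟨Iso.refl _, (Category.id_comp _).trans (whiskerLeft_id V A).symm⟩
  | succ k ih =>
    obtain ⟨e, he⟩ := ih
    refine ⟨(α_ V (U M) (pwM k A)).symm ≪≫ whiskerRightIso (β_ V (U M)) _ ≪≫ α_ _ _ _ ≪≫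
      whiskerLeftIso (U M) e, ?_⟩
    change ((α_ V (U M) (pwM k A)).inv ≫ (β_ V (U M)).hom ▷ pwM k A ≫ (α_ _ _ _).hom ≫
      U M ◁ e.hom) ≫ (lamU M ▷ pwM k (V ⊗ A) ≫ (λ_ (pwM k (V ⊗ A))).hom) ≫ tkM k (V ⊗ A) =
      V ◁ ((lamU M ▷ pwM k A ≫ (λ_ (pwM k A)).hom) ≫ tkM k A)
    simp only [Category.assoc]
    rw [whisker_exchange_assoc, leftUnitor_naturality_assoc, he,
      ← associator_naturality_left_assoc, ← comp_whiskerRight_assoc,
      ← BraidedCategory.braiding_naturality_right, comp_whiskerRight_assoc,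
      ← associator_inv_naturality_middle_assoc, whiskerLeft_comp, whiskerLeft_comp,
      braiding_tensorUnit_right, comp_whiskerRight]
    monoidal

end

variable {G : Type} [Group G] [Finite G]

/-- `ρ × ⋯ × ρ × K`, built from the inside -/
def sq : ℕ → GSpace G → GSpace G
  | 0, K => K
  | k + 1, K => sq k ((reg G).prod K)

theorem gfc_sq (k : ℕ) {K : GSpace G} (h : GFC G K) : GFC G (sq k K) := by
  induction k generalizing K with
  | zero => exact h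
  | succ k ih => exact ih (P241.H32.gfc_prod P241Z.gfc_reg h)

/-- `ρ × K ≅ (ρ' × K) × ℝ` -/
def rgIso (K : GSpace G) : gl ((reg G).prod K) ≅ gl (xt ((redS G).prod K) Rr) :=
  (glProd (reg G) K).symm ≪≫ whiskerRightIso (eV G).symm (gl K) ≪≫ α_ _ _ _ ≪≫
    whiskerLeftIso (Kb G) (β_ _ _) ≪≫ (α_ _ _ _).symm ≪≫
      whiskerRightIso (glProd (redS G) K) _ ≪≫ glXt ((redS G).prod K) Rr

variable (M : Type u) [Category.{0} M] [MonoidalCategory M]
  [SymmetricCategory M] [MonoidalClosed M] [HasZeroMorphisms M] [HasColimitsOfSize.{0, 0} M]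
  [GIn G M]

/-- the iterated evaluation -/
def st : (k : ℕ) → (K : GSpace G) → ((TF M k).obj (gl (sq k K)) ⟶ (TF M 0).obj (gl K))
  | 0, _ => 𝟙 _
  | k + 1, K => (F : M) ◁ st k ((reg G).prod K) ≫ stb M 0 K

theorem piW_stb (n : ℕ) (K : GSpace G) : piW (GG M) (stb M n K) := by
  rw [← (piW (GG M)).cancel_left_of_respectsIso (csIso M n K).hom, csIso_stb]
  exact piW_lam _

theorem piW_stk (n : ℕ) (K : GSpace G) (k : ℕ) : piW (GG M) (stk M n K k) := by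
  induction k with
  | zero => exact piW_of_isIso (𝟙 _)
  | succ k ih => exact (piW (GG M)).comp_mem _ _ (piW_stb M _ _) ih

theorem exists_stIso (k : ℕ) (K : GSpace G) :
    ∃ e : pwM k ((TF M 0).obj (gl K)) ≅ (TF M k).obj (gl (sq k K)),
      e.hom ≫ st M k K = tkM k ((TF M 0).obj (gl K)) := by
  induction k generalizing K with
  | zero => exact ⟨Iso.refl _, Category.id_comp _⟩
  | succ k ih =>
    obtain ⟨e, he⟩ := ih ((reg G).prod K)
    let c := tfL M 0 (Vg G) (gl K) ≪≫ (TF M 0).mapIso (glProd (reg G) K)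
    obtain ⟨φ, hφ⟩ := exists_pwM_iso c k
    obtain ⟨ψ, hψ⟩ := exists_pw_tensor ((JG M).obj (Vg G)) ((TF M 0).obj (gl K)) k
    refine ⟨whiskerRightIso (uIso M) _ ≪≫ α_ _ _ _ ≪≫ whiskerLeftIso F (ψ ≪≫ φ ≪≫ e), ?_⟩
    change ((uIso M).hom ▷ pwM k ((TF M 0).obj (gl K)) ≫ (α_ _ _ _).hom ≫
      (F : M) ◁ (ψ.hom ≫ φ.hom ≫ e.hom)) ≫ (F : M) ◁ st M k ((reg G).prod K) ≫
        ((F : M) ◁ c.inv ≫ (α_ _ _ _).inv) ≫ lamF ▷ (TF M 0).obj (gl K) ≫ (λ_ _).hom =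
      (((uIso M).hom ≫ lamF) ▷ pwM k ((TF M 0).obj (gl K)) ≫ (λ_ _).hom) ≫ tkM k _
    simp only [Category.assoc]
    rw [← whiskerLeft_comp_assoc, ← whiskerLeft_comp_assoc, Category.assoc, Category.assoc,
      Category.assoc, reassoc_of% he, reassoc_of% hφ, Iso.hom_inv_id, Category.comp_id, hψ,
      associator_inv_naturality_right_assoc, Iso.hom_inv_id_assoc, whisker_exchange_assoc,
      leftUnitor_naturality, comp_whiskerRight_assoc]

variable {M}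

/-- maps `F^k K₁ ⟶ K` come from `G`-maps -/
theorem exists_map (k : ℕ) (K₁ : LG G) (K : GSpace G)
    (x : (TF M k).obj K₁ ⟶ (TF M 0).obj (gl K)) :
    ∃ h : K₁ ⟶ gl (sq k K), (TF M k).map h ≫ st M k K = x := by
  induction k generalizing K with
  | zero =>
    obtain ⟨h, hh⟩ := (JG M).map_surjective x
    exact ⟨h, (Category.comp_id _).trans hh⟩
  | succ k ih =>
    obtain ⟨y, hy⟩ := (ev_bij ((TF M k).obj K₁) (gl K)).2 x
    obtain ⟨h, hh⟩ := ih ((reg G).prod K) (y ≫ (JG M).map (glProd (reg G) K).hom)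
    refine ⟨h, Eq.trans ?_ hy⟩
    refine (Category.assoc _ _ _).symm.trans ?_
    refine (congrArg₂ (· ≫ ·) ((whiskerLeft_comp (F : M) _ _).symm.trans
      (congrArg ((F : M) ◁ ·) hh)) (stb_zero M K)).trans ?_
    change (F : M) ◁ (y ≫ (JG M).map (glProd (reg G) K).hom) ≫
      (F : M) ◁ (JG M).map (glProd (reg G) K).inv ≫ gev (JG M) F lamF (gl K) = _
    rw [← whiskerLeft_comp_assoc, Category.assoc, ← Functor.map_comp, Iso.hom_inv_id,
      CategoryTheory.Functor.map_id, Category.comp_id]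

variable {C : Type u'} [Category.{v'} C] (Q : M ⥤ C) [Q.IsLocalization (piW (GG M))]

theorem conj_aux (E : C ⥤ C) {X X' Y Y' A A' B B' : C} (a : E.obj X ≅ A) (a' : E.obj X' ≅ A')
    (b : E.obj Y ≅ B) (b' : E.obj Y' ≅ B') {u : A ⟶ A'} {u₀ : X ⟶ X'} {θ : X ≅ Y} {θ' : X' ≅ Y'}
    {f : Y ⟶ Y'} {g : B ⟶ B'} (hu : E.map u₀ = a.hom ≫ u ≫ a'.inv)
    (hf : u₀ ≫ θ'.hom = θ.hom ≫ f) (hg : E.map f ≫ b'.hom = b.hom ≫ g) :
    u ≫ (a'.symm ≪≫ E.mapIso θ' ≪≫ b').hom = (a.symm ≪≫ E.mapIso θ ≪≫ b).hom ≫ g := by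
  have h2 := congrArg E.map hf
  rw [E.map_comp, E.map_comp, hu, Category.assoc, Category.assoc] at h2
  simp only [Iso.trans_hom, Iso.symm_hom, Functor.mapIso_hom, Category.assoc]
  rw [← hg, ← reassoc_of% h2, Iso.inv_hom_id_assoc]

theorem isIso_st (k : ℕ) (K : GSpace G) : IsIso (Q.map (st M k K)) := by
  obtain ⟨e, he⟩ := exists_stIso M k K
  have h : IsIso (Q.map (e.hom ≫ st M k K)) := by
    rw [he]
    exact Localization.inverts Q (piW (GG M)) _ (piW_tkM _ k _)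
  rw [Q.map_comp] at h
  exact IsIso.of_isIso_comp_left (Q.map e.hom) _

theorem rep_map (h : C1 M) (n : ℕ) {K : GSpace G} (hK : GFC G K) (K' : GSpace G)
    (u : Q.obj ((TF M n).obj (gl K)) ⟶ Q.obj ((TF M n).obj (gl K'))) :
    ∃ (m k : ℕ) (θ : ∀ K : GSpace G,
        Q.obj ((TF M n).obj (gl K)) ≅ Q.obj ((TF M m).obj (gl (sq k K))))
      (f : gl (sq k K) ⟶ gl (sq k K')),
      u ≫ (θ K').hom = (θ K).hom ≫ Q.map ((TF M m).map f) := by
  induction n with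
  | zero =>
    obtain ⟨k, x, hx⟩ := P241GL.rep (GG M) Q (h.src 0 K hK) _ u
    obtain ⟨e, he⟩ := exists_stIso M k K
    obtain ⟨f, hf⟩ := exists_map k _ K' (e.inv ≫ x)
    have := isIso_st Q k
    refine ⟨k, k, fun K => (asIso (Q.map (st M k K))).symm, f, ?_⟩
    rw [Iso.symm_hom, Iso.symm_hom, Iso.comp_inv_eq, Category.assoc, Iso.eq_inv_comp, asIso_hom,
      asIso_hom, ← Q.map_comp, hf, Q.map_comp, ← hx, ← he, ← Q.map_comp_assoc,
      Iso.inv_hom_id_assoc]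
  | succ n ih =>
    obtain ⟨E, hE, ⟨a⟩⟩ := exists_F Q h
    let b : ∀ X : M, E.obj (Q.obj X) ≅ Q.obj ((F : M) ⊗ X) := fun X => a.app X
    obtain ⟨u₀, hu⟩ := E.map_surjective
      ((b ((TF M n).obj (gl K))).hom ≫ u ≫ (b ((TF M n).obj (gl K'))).inv)
    obtain ⟨m, k, θ, f, hf⟩ := ih u₀
    exact ⟨m + 1, k, fun K => (b ((TF M n).obj (gl K))).symm ≪≫ E.mapIso (θ K) ≪≫
      b ((TF M m).obj (gl (sq k K))), f,
      conj_aux E _ _ _ _ hu hf (a.hom.naturality ((TF M m).map f))⟩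

theorem rep_xt (h : C1 M) (n : ℕ) {K : GSpace G} (hK : GFC G K) (K' : GSpace G)
    (u : Q.obj ((TF M n).obj (gl K)) ⟶ Q.obj ((TF M n).obj (gl K'))) :
    ∃ (m k : ℕ) (θ : ∀ K : GSpace G, Q.obj ((TF M n).obj (gl K)) ≅
        Q.obj ((TF M m).obj (gl (xt ((redS G).prod (sq k K)) Rr))))
      (f : gl (xt ((redS G).prod (sq k K)) Rr) ⟶ gl (xt ((redS G).prod (sq k K')) Rr)),
      u ≫ (θ K').hom = (θ K).hom ≫ Q.map ((TF M m).map f) := by
  obtain ⟨m, k, θ, f, hf⟩ := rep_map Q h n hK K' u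
  have : ∀ K : GSpace G, IsIso (Q.map (stb M m K)) := fun K =>
    Localization.inverts Q (piW (GG M)) _ (piW_stb M m K)
  refine ⟨m + 1, k, fun K => θ K ≪≫ (asIso (Q.map (stb M m (sq k K)))).symm ≪≫
    Q.mapIso ((TF M (m + 1)).mapIso (rgIso (sq k K))),
    (rgIso (sq k K)).inv ≫ rgMap f ≫ (rgIso (sq k K')).hom, ?_⟩
  have h1 := congrArg Q.map (stb_nat M m f)
  rw [Q.map_comp, Q.map_comp] at h1
  simp only [Iso.trans_hom, Iso.symm_hom, asIso_inv, Functor.mapIso_hom, Category.assoc]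
  rw [reassoc_of% hf, ← Q.map_comp, ← Functor.map_comp, Iso.hom_inv_id_assoc, Functor.map_comp,
    Q.map_comp, cancel_epi, IsIso.eq_inv_comp, ← reassoc_of% h1, IsIso.hom_inv_id_assoc]

/-- the level of a finite object may be raised -/
theorem exists_level {B : C} {n : ℕ} {K : GSpace G} (hK : GFC G K)
    (e : B ≅ Q.obj ((TF M n).obj (gl K))) {N : ℕ} (hN : n ≤ N) :
    ∃ K₁ : GSpace G, GFC G K₁ ∧ Nonempty (B ≅ Q.obj ((TF M N).obj (gl K₁))) := by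
  obtain ⟨k, rfl⟩ := Nat.exists_eq_add_of_le hN
  have : IsIso (Q.map (stk M n K k)) := Localization.inverts Q (piW (GG M)) _ (piW_stk M n K k)
  exact ⟨sp K k, gfc_sp hK k, ⟨e ≪≫ (asIso (Q.map (stk M n K k))).symm⟩⟩

/-- **Row C3**. -/
theorem c3 (hI : I1 G) (h : C1 M) : C3 Q := by
  rintro B B' ⟨n, K, hK, ⟨e⟩⟩ ⟨n', K', hK', ⟨e'⟩⟩ u
  obtain ⟨K₁, h₁, ⟨e₁⟩⟩ := exists_level Q hK e (Nat.le_add_right n n')
  obtain ⟨K₂, h₂, ⟨e₂⟩⟩ := exists_level Q hK' e' (Nat.le_add_left n' n)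
  obtain ⟨m, k, θ, f, hf⟩ := rep_xt Q h (n + n') h₁ K₂ (e₁.inv ≫ u ≫ e₂.hom)
  refine ⟨m, _, _, f, e₁ ≪≫ θ K₁, e₂ ≪≫ θ K₂, P241.H32.gfc_prod hI (gfc_sq k h₁),
    P241.H32.gfc_prod hI (gfc_sq k h₂), ?_⟩
  rw [Iso.trans_hom, Iso.trans_hom, Category.assoc, ← hf, Category.assoc, Category.assoc,
    Iso.hom_inv_id_assoc]

/-- **Row C3'**. -/
theorem c3' (hI : I1 G) (h : C1 M) : C3' Q := by
  rintro B ⟨n, K, hK, ⟨e⟩⟩ u
  obtain ⟨m, k, θ, f, hf⟩ := rep_xt Q h n hK K (e.inv ≫ u ≫ e.hom)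
  refine ⟨m, _, f, e ≪≫ θ K, P241.H32.gfc_prod hI (gfc_sq k hK), ?_⟩
  rw [Iso.trans_hom, Category.assoc, ← hf, Category.assoc, Category.assoc, Iso.hom_inv_id_assoc]

end Vale.Agent.P241GE
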