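import Vale.Agent.P241GR.C
import Vale.Agent.P241.H486.Fix

/-!
# P241G: `G`-cofibrations, quotients and `G`-homotopy equivalences in the model
-/

open CategoryTheory MonoidalCategory Limits OnePoint

noncomputable section

namespace Vale.Agent.P241GE

open P251.G P251.G.LC P251.H P251.St P241.St P241.Geo P241GA P241GA.GIn P241GR
open P251.H.GS.StabInput

universe u

variable {G : Type} [Group G]

theorem gincl_hom (t : unitInterval) (K : GSpace G) :
    (gincl t K).hom = incl t (L K) ≫ (pt K Iv).hom := LC.hom_ext fun _ => rfl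

theorem injective_gincl (t : unitInterval) (K : GSpace G) :
    Function.Injective (app (gincl t K).hom) := by
  intro x y h
  apply injective_app_incl t (L K)
  have e : (gincl t K).hom ≫ (pt K Iv).inv = incl t (L K) :=
    (Iso.comp_inv_eq _).mpr (gincl_hom t K)
  rw [← e]
  exact congrArg (app (pt K Iv).inv) h

/-- an equivariant homotopy as a morphism -/
def glH {X Y : GSpace G} (K : L X ⊗ II ⟶ L Y) (hK : EqvH K) : gl (xt X Iv) ⟶ gl Y :=
  glMap ((pt X Iv).inv ≫ K) fun g => by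
    rw [← cancel_epi (pt X Iv).hom, pt_act_assoc, Category.assoc, Iso.hom_inv_id_assoc,
      Iso.hom_inv_id_assoc]
    exact hK g

theorem gincl_glH (t : unitInterval) {X Y : GSpace G} (K : L X ⊗ II ⟶ L Y) (hK : EqvH K) :
    (gincl t X ≫ glH K hK).hom = incl t (L X) ≫ K := by
  refine (congrArg (· ≫ (pt X Iv).inv ≫ K) (gincl_hom t X)).trans ?_
  exact (Category.assoc _ _ _).trans (congrArg (_ ≫ ·) (Iso.hom_inv_id_assoc _ _))

/-- the retraction onto the mapping cylinder -/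
theorem exists_retr {A B : GSpace G} (i : gl A ⟶ gl B) (hi : GCof (A := A) (B := B) i.hom) :
    ∃ (Z : GSpace G) (g : gl (xt A Iv) ⟶ gl Z) (k : gl B ⟶ gl Z) (r : gl (xt B Iv) ⟶ gl Z),
      IsPushout (gincl 0 A).hom i.hom g.hom k.hom ∧ gincl 0 B ≫ r = k ∧ gwr i Iv ≫ r = g := by
  obtain ⟨P, g, k, hP, -, -⟩ := exists_pushout (A := L A) (B := L (xt A Iv)) (C := L B)
    (gincl 0 A).hom i.hom (injective_gincl 0 A)
  have hw : ∀ γ : G, (gincl 0 A).hom ≫ act (xt A Iv) γ ≫ g = i.hom ≫ act B γ ≫ k := fun γ =>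
    (Category.assoc _ _ _).symm.trans ((congrArg (· ≫ g) (eqv_hom (gincl 0 A) γ).symm).trans
      ((Category.assoc _ _ _).trans ((congrArg (act A γ ≫ ·) hP.w).trans
        ((Category.assoc _ _ _).symm.trans ((congrArg (· ≫ k) (eqv_hom i γ)).trans
          (Category.assoc _ _ _))))))
  let a : G → (P ⟶ P) := fun γ => hP.desc (act (xt A Iv) γ ≫ g) (act B γ ≫ k) (hw γ)
  have hg : ∀ γ, g ≫ a γ = act (xt A Iv) γ ≫ g := fun γ => hP.inl_desc _ _ _
  have hk : ∀ γ, k ≫ a γ = act B γ ≫ k := fun γ => hP.inr_desc _ _ _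
  have h1 : a 1 = 𝟙 P := hP.hom_ext
    (by rw [hg, act_one, Category.id_comp, Category.comp_id])
    (by rw [hk, act_one, Category.id_comp, Category.comp_id])
  have hm : ∀ γ γ', a (γ * γ') = a γ' ≫ a γ := fun γ γ' => hP.hom_ext
    (by rw [hg, act_mul, reassoc_of% hg, hg, Category.assoc])
    (by rw [hk, act_mul, reassoc_of% hk, hk, Category.assoc])
  have hg' : Eqv (X := xt A Iv) (Y := mkG P a h1 hm) g := fun γ =>
    (hg γ).symm.trans (congrArg (g ≫ ·) (act_mkG P a h1 hm γ).symm)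
  have hk' : Eqv (X := B) (Y := mkG P a h1 hm) k := fun γ =>
    (hk γ).symm.trans (congrArg (k ≫ ·) (act_mkG P a h1 hm γ).symm)
  obtain ⟨r, hr, h0, hr1⟩ := hi (mkG P a h1 hm) k ((pt A Iv).hom ≫ g) hk'
    (fun γ => (pt_act_assoc A Iv γ g).symm.trans ((congrArg ((pt A Iv).hom ≫ ·) (hg' γ)).trans
      (Category.assoc _ _ _).symm))
    ((Category.assoc _ _ _).symm.trans ((congrArg (· ≫ g) (gincl_hom 0 A).symm).trans hP.w))
  refine ⟨mkG P a h1 hm, glMap g hg', glMap k hk', glH r hr, hP,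
    Action.hom_ext _ _ ((gincl_glH 0 r hr).trans h0), Action.hom_ext _ _ ?_⟩
  change ((pt A Iv).inv ≫ i.hom ▷ toLC Iv ≫ (pt B Iv).hom) ≫ (pt B Iv).inv ≫ r = g
  refine (Category.assoc _ _ _).trans ((Iso.inv_comp_eq _).mpr (Eq.trans ?_ hr1))
  exact (Category.assoc _ _ _).trans (congrArg (_ ≫ ·) (Iso.hom_inv_id_assoc _ _))

theorem isPushout_quot {A B C : Space} {i : Map A B} {q : Map B C} (h : IsQuot i q) :
    IsPushout (toHom i) (0 : toLC A ⟶ LC.of Empty) (toHom q) (0 : LC.of Empty ⟶ toLC C) := by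
  have h0 : ∀ b, q.toFun b = ∞ ↔ b ∈ Set.range i.toFun := fun b => by
    rw [← q.map_infty, h.2]
    exact ⟨fun hb => hb.elim (fun e => ⟨∞, i.map_infty.trans e.symm⟩) And.left,
      fun hb => Or.inr ⟨hb, ∞, i.map_infty⟩⟩
  refine isPushout_of (app_ext fun a => (h0 _).2 ⟨a, rfl⟩) (fun x y _ => ?_)
    ⟨fun b hb hb' => hb ?_, fun b hb b' _ e => ?_, fun c hc => ?_⟩
  · induction x using OnePoint.rec with
    | infty =>
      induction y using OnePoint.rec with
      | infty => rfl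
      | coe y => exact y.elim
    | coe x => exact x.elim
  · obtain ⟨x, hx⟩ := hb'
    exact (h0 b).1 hx.symm
  · exact ((h.2 b b').1 e).resolve_right fun h' => hb h'.1
  · obtain ⟨b, rfl⟩ := h.1 c
    exact ⟨b, fun hb => hc ⟨∞, ((h0 b).2 hb).symm⟩, rfl⟩

variable [Finite G] (M : Type u) [Category.{0} M] [MonoidalCategory M]
  [SymmetricCategory M] [MonoidalClosed M] [HasZeroMorphisms M] [HasColimitsOfSize.{0, 0} M]
  [GIn G M]

theorem isPushout_tf (n : ℕ) {A B C D : LG G} (i : A ⟶ B) (f : A ⟶ C) (g : B ⟶ D) (k : C ⟶ D)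
    (hi : Function.Injective (app i.hom)) (h : IsPushout i.hom f.hom g.hom k.hom) :
    IsPushout ((TF M n).map i) ((TF M n).map f) ((TF M n).map g) ((TF M n).map k) := by
  induction n with
  | zero => exact GIn.pushout i f g k hi h
  | succ n ih => exact GS.StabInput.isPushout_whiskerLeft _ ih

/-- `G`-cofibrations go to h-cofibrations -/
theorem hCof_tf (n : ℕ) {A B : GSpace G} (i : gl A ⟶ gl B) (hi : GCof (A := A) (B := B) i.hom) :
    HCof ((TF M n).map i) := by
  obtain ⟨Z, g, k, r, hP, h0, h1⟩ := exists_retr i hi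
  have hQ := isPushout_tf M n (gincl 0 A) i g k (injective_gincl 0 A) hP
  intro W f H h
  have hc : (TF M n).map (gincl 0 A) ≫ (xtIso M n A Iv).inv ≫ H = (TF M n).map i ≫ f := by
    rw [← inc_xtIso, Category.assoc, Iso.hom_inv_id_assoc]
    exact h
  refine ⟨(xtIso M n B Iv).hom ≫ (TF M n).map r ≫ hQ.desc _ f hc, ?_, ?_⟩
  · refine (Category.assoc _ _ _).symm.trans ((congrArg (· ≫ _) (inc_xtIso M n B 0)).trans ?_)
    rw [← Functor.map_comp_assoc, h0, hQ.inr_desc]
  · refine (xtIso_gwr_assoc M n i Iv _).trans ?_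
    rw [← Functor.map_comp_assoc, h1, hQ.inl_desc, Iso.hom_inv_id_assoc]

theorem isZero_tf_empty (n : ℕ) : IsZero ((TF M n).obj ((triv LC G).obj (LC.of Empty))) := by
  induction n with
  | zero => exact GIn.isZero_empty
  | succ n ih => exact isZero_tensor_right _ ih

theorem isZero_tf (n : ℕ) : IsZero ((TF M n).obj (gl (GSpace.triv G Em))) :=
  (isZero_tf_empty M n).of_iso ((TF M n).mapIso (glTriv G Em).symm)

/-- cofibre sequences of `G`-spaces go to cofibre sequences -/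
theorem cof_of (n : ℕ) {A B C : GSpace G} (i : Map A.und B.und) (q : Map B.und C.und)
    (hi : IsGMap (X := A) (Y := B) i.toFun) (hq : IsGMap (X := B) (Y := C) q.toFun)
    (hc : GCofib (A := A) (B := B) i) (h : IsQuot i q) :
    HCof ((TF M n).map (glMap (toHom i) ((isGMap_iff (toHom i)).mp hi))) ∧
      IsCofibre ((TF M n).map (glMap (toHom i) ((isGMap_iff (toHom i)).mp hi)))
        ((TF M n).map (glMap (toHom q) ((isGMap_iff (toHom q)).mp hq))) :=
  ⟨hCof_tf M n _ ((gCofib_iff (toHom i)).mp hc), _, isZero_tf_empty M n, _, _,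
    isPushout_tf M n _ 0 _ 0 (P241.H486.injective_of_gcofib hc) (isPushout_quot h)⟩

theorem cof_seq (n : ℕ) {A B C : GSpace G} (h : Seq A B C) :
    ∃ (i : gl A ⟶ gl B) (q : gl B ⟶ gl C),
      HCof ((TF M n).map i) ∧ IsCofibre ((TF M n).map i) ((TF M n).map q) := by
  obtain ⟨-, -, -, i, q, hi, hq, hc, h⟩ := h
  exact ⟨_, _, cof_of M n i q hi hq hc h⟩

theorem mHtpy_tf (n : ℕ) {X Y : GSpace G} {f g : gl X ⟶ gl Y}
    (h : GHtp (X := X) (Y := Y) f.hom g.hom) : MHtpy ((TF M n).map f) ((TF M n).map g) := by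
  obtain ⟨K, hK, h0, h1⟩ := h
  refine (mHtpy_iff _ _).2 ⟨(TF M n).map (glH K hK), ?_, ?_⟩
  · rw [← Functor.map_comp]
    exact congrArg (TF M n).map (Action.hom_ext _ _ ((gincl_glH 0 K hK).trans h0))
  · rw [← Functor.map_comp]
    exact congrArg (TF M n).map (Action.hom_ext _ _ ((gincl_glH 1 K hK).trans h1))

theorem he_tf (n : ℕ) {X Y : GSpace G} (h : GHEquiv X Y) :
    ∃ (f : gl X ⟶ gl Y) (g : gl Y ⟶ gl X),
      MHtpy ((TF M n).map f ≫ (TF M n).map g) (𝟙 _) ∧
        MHtpy ((TF M n).map g ≫ (TF M n).map f) (𝟙 _) := by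
  obtain ⟨f, g, hf, hg, h1, h2⟩ := (gHEquiv_iff X Y).1 h
  refine ⟨glMap f hf, glMap g hg, ?_, ?_⟩
  · rw [← Functor.map_comp, ← CategoryTheory.Functor.map_id]
    exact mHtpy_tf M n h1
  · rw [← Functor.map_comp, ← CategoryTheory.Functor.map_id]
    exact mHtpy_tf M n h2

end Vale.Agent.P241GE
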