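import Vale.Agent.P241GC.Main
import Vale.Agent.P241GD.A2
import Vale.Agent.P241GF.C4
import Vale.Agent.P241GF.C5
import Vale.Agent.P241GE.C2
import Vale.Agent.P241GE.C3
import Vale.Agent.P241GI.Main

/-!
# P241G: the rows of the blocks A and C without hypotheses
-/

open CategoryTheory MonoidalCategory Limits

namespace Vale.Agent.P241GE

open P251.H P251.St P241.St P241GA P241GA.GIn P241GR
open P251.H.GS.StabInput

universe v' u u'

variable {G : Type} [Group G] [Finite G] {M : Type u} [Category.{0} M] [MonoidalCategory M]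
  [SymmetricCategory M] [MonoidalClosed M] [HasZeroMorphisms M] [HasColimitsOfSize.{0, 0} M]
  [GIn G M] {C : Type u'} [Category.{v'} C] (Q : M ⥤ C) [Q.IsLocalization (piW (GG M))]

theorem rA1 : A1 (GG M) Q := P241GD.a1 _ Q

theorem rC2 : C2 Q := c2 Q (P241GC.c1 M)

theorem rC3 : C3 Q := c3 Q (P241GI.i1 G) (P241GC.c1 M)

theorem rC3' : C3' Q := c3' Q (P241GI.i1 G) (P241GC.c1 M)

variable [Preadditive C] [HasCoproducts.{0} C]

theorem rA2 : A2 (GG M) Q := P241GD.a2 _ Q

theorem rC5 : C5 Q := P241GF.c5 (P241GC.c1 M) (rA1 Q) (rA2 Q)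

/-- the triangulated structure with all its rows -/
theorem rC4 : ∃ (_ : HasZeroObject C) (_ : HasShift C ℤ)
    (_ : ∀ n : ℤ, (shiftFunctor C n).Additive) (_ : Pretriangulated C) (_ : IsTriangulated C),
    A3 Q ∧ C4 Q := by
  obtain ⟨h0, h1, h2, h3, a3⟩ := (rA2 Q).tri
  have := a3.tri
  exact ⟨h0, h1, h2, h3, this, a3,
    P241GF.c4 (P241GI.i1 G) (P241GC.c1 M) (rC3 Q) (rA1 Q) (rA2 Q) a3⟩

end Vale.Agent.P241GE
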