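import Vale.Agent.P241GE.Cf
import Vale.Agent.P241GI.Main

/-!
# P241G: the induction over the finite objects
-/

open CategoryTheory MonoidalCategory Limits OnePoint

noncomputable section

namespace Vale.Agent.P241GE

open P251.G P251.G.LC P251.H P251.St P241.St P241.Geo P241GA P241GA.GIn P241GR
open P251.H.GS.StabInput
open P241Z (reg)

universe u

variable {G : Type} [Group G]

/-- `ℝ × (G/H × ℝⁿ) = G/H × ℝⁿ⁺¹` -/
def cellH (H : Subgroup G) (n : ℕ) :
    ((GSpace.triv G Rr).prod (cell G H n)).carrier ≃ₜ (cell G H (n + 1)).carrier where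
  toFun p := (p.2.1, (Fin.cons p.1 p.2.2 : Fin (n + 1) → ℝ))
  invFun q := (q.2 0, (q.1, Fin.tail q.2))
  left_inv _ := rfl
  right_inv q := Prod.ext rfl (Fin.cons_self_tail q.2)
  continuous_toFun := by
    let _ : TopologicalSpace (G ⧸ H) := ⊥
    exact (continuous_fst.comp continuous_snd).prodMk (continuous_pi fun i =>
      Fin.cases continuous_fst (fun j => (continuous_apply j).comp
        (continuous_snd.comp continuous_snd)) i)
  continuous_invFun := by
    let _ : TopologicalSpace (G ⧸ H) := ⊥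
    exact ((continuous_apply 0).comp continuous_snd).prodMk (continuous_fst.prodMk
      (continuous_pi fun j => (continuous_apply j.succ).comp continuous_snd))

/-- `ℝ ⊗ (G/H × ℝⁿ) ≅ G/H × ℝⁿ⁺¹` -/
def cellI (H : Subgroup G) (n : ℕ) :
    (triv LC G).obj RR ⊗ gl (cell G H n) ≅ gl (cell G H (n + 1)) :=
  whiskerRightIso (glTriv G Rr) _ ≪≫ glProd _ _ ≪≫
    glIso (X := (GSpace.triv G Rr).prod (cell G H n)) (cellH H n) fun _ _ => rfl

variable [Finite G] {M : Type u} [Category.{0} M] [MonoidalCategory M]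
  [SymmetricCategory M] [MonoidalClosed M] [HasZeroMorphisms M] [HasColimitsOfSize.{0, 0} M]
  [GIn G M]

/-- the closure properties of the class of sources -/
structure Kit (P : M → Prop) : Prop where
  iso : ∀ {A B : M}, (A ≅ B) → P A → P B
  he : ∀ {A B : M} (f : A ⟶ B) (g : B ⟶ A), MHtpy (f ≫ g) (𝟙 A) → MHtpy (g ≫ f) (𝟙 B) →
    P A → P B
  zero : ∀ {A : M}, IsZero A → P A
  susp : ∀ {A : M}, P A → P (S M ⊗ A)
  desusp : ∀ {A : M}, P A → P ((GS.StabInput.L : M) ⊗ A)
  cancel : ∀ {A : M}, P (S M ⊗ A) → P A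
  ext : ∀ {A B C : M} {i : A ⟶ B} {q : B ⟶ C}, HCof i → IsCofibre i q → P A → P C → P B
  quot : ∀ {A B C : M} {i : A ⟶ B} {q : B ⟶ C}, HCof i → IsCofibre i q → P A → P B → P C
  fib : ∀ {A B C : M} {i : A ⟶ B} {q : B ⟶ C}, HCof i → IsCofibre i q → P B → P C → P A
  test : ∀ {A : M}, GG M A → P A

variable {P : M → Prop} (h : Kit P)

include h

theorem Kit.thick (n : ℕ) : Thick fun X : GSpace G => P ((TF M n).obj (gl X)) where
  empty := h.zero (isZero_tf M n)
  hequiv _ e hX := by
    obtain ⟨f, g, h1, h2⟩ := he_tf M n e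
    exact h.he _ _ h1 h2 hX
  fib s hB hC := by
    obtain ⟨i, q, h1, h2⟩ := cof_seq M n s
    exact h.fib h1 h2 hB hC
  ext s hA hC := by
    obtain ⟨i, q, h1, h2⟩ := cof_seq M n s
    exact h.ext h1 h2 hA hC
  quot s hA hB := by
    obtain ⟨i, q, h1, h2⟩ := cof_seq M n s
    exact h.quot h1 h2 hA hB

theorem Kit.cell_iff (n : ℕ) (H : Subgroup G) (m : ℕ) :
    P ((TF M n).obj (gl (cell G H m))) ↔ P ((TF M n).obj (gl (cell G H 0))) := by
  induction m with
  | zero => rfl
  | succ m ih =>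
    let e := sIso M n (gl (cell G H m)) ≪≫ (TF M n).mapIso (cellI H m)
    exact ⟨fun x => ih.1 (h.cancel (h.iso e.symm x)), fun x => h.iso e (h.susp (ih.2 x))⟩

theorem Kit.of_cells (n : ℕ) (hc : ∀ H : Subgroup G, P ((TF M n).obj (gl (cell G H 0))))
    {K : GSpace G} (hK : GFC G K) : P ((TF M n).obj (gl K)) := by
  induction hK with
  | empty => exact (h.thick n).empty
  | cell V m => exact (h.cell_iff n V m).2 (hc V)
  | hequiv hX e ih => exact (h.thick n).hequiv hX e ih
  | ext hi hq hc' hs _ _ ihA ihC =>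
    obtain ⟨h1, h2⟩ := cof_of M n _ _ hi hq hc' hs
    exact h.ext h1 h2 ihA ihC

/-- **All finite objects are in the class.** -/
theorem src_of_kit (n : ℕ) (K : GSpace G) (hK : GFC G K) : P ((TF M n).obj (gl K)) := by
  induction n generalizing K with
  | zero => exact h.of_cells 0 (fun H => h.test ⟨(H, []), ⟨Iso.refl _⟩⟩) hK
  | succ n ih =>
    have key : ∀ (c : ℕ) (H : Subgroup G), Nat.card H = c →
        P ((TF M (n + 1)).obj (gl (cell G H 0))) := by
      intro c
      induction c using Nat.strong_induction_on with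
      | _ c ihc =>
        rintro H rfl
        obtain ⟨m, hm⟩ := P241GI.i2 G _ (h.thick (n + 1)) H
          (fun V hV m => (h.cell_iff (n + 1) V m).2 (ihc _ hV V rfl))
          (h.iso ((α_ _ _ _).symm ≪≫ csIso M n (cell G H 0) ≪≫ (TF M (n + 1)).mapIso
            ((glProd (reg G) (cell G H 0)).symm ≪≫ β_ _ _ ≪≫ glProd (cell G H 0) (reg G)))
            (h.desusp (h.susp (ih _ (GFC.cell H 0)))))
        exact (h.cell_iff (n + 1) H m).1 hm
    exact h.of_cells (n + 1) (fun H => key _ H rfl) hK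

end Vale.Agent.P241GE
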